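import Vale.Agent.P022.H905.Unit

/-!
# P022 / P8b: every orbit of units has the same number of elements in the fundamental domain
-/

namespace Vale.Agent.P022.H905

open NumberField Module
open Vale.Agent.P022.H436 (QD)

section abstract

variable {G : Type*} [CommGroup G] (ρ : G →* ℝ) (hpos : ∀ g, 0 < ρ g) (ε : G) (hε : 1 < ρ ε)

include hpos hε

theorem zpow_eq_one_of_mem {a : ℝ} {k : ℤ} (h1 : 1 ≤ a) (h2 : a < ρ ε) (h3 : 1 ≤ a * ρ (ε ^ k))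
    (h4 : a * ρ (ε ^ k) < ρ ε) : k = 0 := by
  have hE : 0 < ρ ε := hpos ε
  have hz : ρ (ε ^ k) = ρ ε ^ k := map_zpow' ρ (fun x => by
    rw [eq_comm, inv_eq_of_mul_eq_one_right]; rw [← map_mul, mul_inv_cancel, map_one]) ε k
  rw [hz] at h3 h4
  have hk : 0 < ρ ε ^ k := zpow_pos hE k
  have h5 : ρ ε ^ k < ρ ε ^ (1 : ℤ) := by
    rw [zpow_one]
    calc ρ ε ^ k = 1 * ρ ε ^ k := (one_mul _).symm
      _ ≤ a * ρ ε ^ k := by gcongr
      _ < ρ ε := h4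
  have h6 : ρ ε ^ (-1 : ℤ) < ρ ε ^ k := by
    rw [zpow_neg_one]
    rw [inv_lt_iff_one_lt_mul₀ hE]
    calc 1 ≤ a * ρ ε ^ k := h3
      _ < ρ ε * ρ ε ^ k := by gcongr
      _ = ρ ε ^ k * ρ ε := mul_comm _ _
  have h7 : k < 1 := (zpow_lt_zpow_iff_right₀ hε).1 h5
  have h8 : -1 < k := (zpow_lt_zpow_iff_right₀ hε).1 h6
  omega

theorem exists_mul_zpow {r : ℝ} (hr : 0 < r) (g : G) :
    ∃ k : ℤ, 1 ≤ r * ρ (g * ε ^ k) ∧ r * ρ (g * ε ^ k) < ρ ε := by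
  have hE : 0 < ρ ε := hpos ε
  have hz : ∀ k : ℤ, ρ (ε ^ k) = ρ ε ^ k := fun k => map_zpow' ρ (fun x => by
    rw [eq_comm, inv_eq_of_mul_eq_one_right]; rw [← map_mul, mul_inv_cancel, map_one]) ε k
  obtain ⟨n, h1, h2⟩ := exists_mem_Ico_zpow (mul_pos hr (hpos g)) hε
  refine ⟨-n, ?_, ?_⟩
  · rw [map_mul, hz, zpow_neg, ← mul_assoc, ← div_eq_mul_inv, one_le_div (zpow_pos hE n)]
    exact h1
  · rw [map_mul, hz, zpow_neg, ← mul_assoc, ← div_eq_mul_inv, div_lt_iff₀ (zpow_pos hE n)]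
    rw [zpow_add₀ hE.ne', zpow_one, mul_comm (ρ ε ^ n)] at h2
    exact h2

theorem ncard_eq {r : ℝ} (hr : 0 < r) :
    {g : G | 1 ≤ r * ρ g ∧ r * ρ g < ρ ε}.ncard = {g : G | 1 ≤ ρ g ∧ ρ g < ρ ε}.ncard := by
  classical
  have hex : ∀ g : G, ∃ k : ℤ, 1 ≤ ρ (g * ε ^ k) ∧ ρ (g * ε ^ k) < ρ ε := fun g => by
    have := exists_mul_zpow ρ hpos ε hε one_pos g
    simpa only [one_mul] using this
  choose k hk1 hk2 using hex
  refine Set.ncard_congr (fun g _ => g * ε ^ k g) (fun g _ => ⟨hk1 g, hk2 g⟩) ?_ ?_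
  · rintro g h ⟨g1, g2⟩ ⟨h1, h2⟩ hgh
    have e1 : h = g * ε ^ (k g - k h) := by
      rw [zpow_sub, ← mul_assoc, hgh, mul_inv_cancel_right]
    have e2 : k g - k h = 0 := by
      refine zpow_eq_one_of_mem ρ hpos ε hε g1 g2 ?_ ?_
      · rw [mul_assoc, ← map_mul, ← e1]; exact h1
      · rw [mul_assoc, ← map_mul, ← e1]; exact h2
    rw [e1, e2, zpow_zero, mul_one]
  · rintro b ⟨b1, b2⟩
    obtain ⟨n, hn1, hn2⟩ := exists_mul_zpow ρ hpos ε hε hr b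
    refine ⟨b * ε ^ n, ⟨hn1, hn2⟩, ?_⟩
    have e1 : b * ε ^ n * ε ^ k (b * ε ^ n) = b * ε ^ (n + k (b * ε ^ n)) := by
      rw [zpow_add, mul_assoc]
    have e2 : n + k (b * ε ^ n) = 0 := by
      refine zpow_eq_one_of_mem ρ hpos ε hε b1 b2 ?_ ?_
      · rw [← map_mul, ← e1]; exact hk1 _
      · rw [← map_mul, ← e1]; exact hk2 _
    rw [e1, e2, zpow_zero, mul_one]

end abstract

variable {K : Type*} [Field K] [NumberField K] (q : QD K) (σ : K →+* ℝ)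

/-- the elements with bounded conjugates form a finite set -/
theorem finite_bdd (A B : ℝ) : {z : 𝓞 K | |s1 σ z| ≤ A ∧ |s2 q σ z| ≤ B}.Finite := by
  have hd : 0 < |s1 σ (dl q)| := abs_pos.2 (s1_dl_ne q σ)
  obtain ⟨Y, hY⟩ := exists_nat_ge ((A + B) / |s1 σ (dl q)|)
  obtain ⟨X, hX⟩ := exists_nat_ge (A + Y * |s1 σ q.w|)
  have hfin : ((fun p : ℤ × ℤ => (p.1 : 𝓞 K) + p.2 * q.w) ''
    (Set.Icc (-(X : ℤ)) X ×ˢ Set.Icc (-(Y : ℤ)) Y)).Finite :=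
    ((Set.finite_Icc _ _).prod (Set.finite_Icc _ _)).image _
  refine hfin.subset ?_
  rintro z ⟨h1, h2⟩
  have e0 := q.eq_c z
  have e1 : s1 σ z = q.cx z + q.cy z * s1 σ q.w := by
    conv_lhs => rw [e0]
    rw [map_add, map_mul, map_intCast, map_intCast]
  have e2 : s2 q σ z = q.cx z + q.cy z * (q.t - s1 σ q.w) := by
    conv_lhs => rw [e0]
    rw [map_add, map_mul, map_intCast, map_intCast, s2_apply, s_w, map_sub, map_intCast]
  have e3 : s1 σ z - s2 q σ z = q.cy z * s1 σ (dl q) := by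
    rw [e1, e2]
    unfold dl
    rw [map_sub, map_mul, map_intCast, map_ofNat]
    ring
  have hy : |(q.cy z : ℝ)| ≤ Y := by
    refine le_trans ?_ hY
    rw [le_div_iff₀ hd, ← abs_mul, ← e3]
    calc |s1 σ z - s2 q σ z| ≤ |s1 σ z| + |s2 q σ z| := abs_sub _ _
      _ ≤ A + B := add_le_add h1 h2
  have hx : |(q.cx z : ℝ)| ≤ X := by
    refine le_trans ?_ hX
    have : (q.cx z : ℝ) = s1 σ z - q.cy z * s1 σ q.w := by rw [e1]; ring
    rw [this]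
    calc |s1 σ z - q.cy z * s1 σ q.w| ≤ |s1 σ z| + |q.cy z * s1 σ q.w| := abs_sub _ _
      _ ≤ A + Y * |s1 σ q.w| := by
        rw [abs_mul]
        gcongr
  have hy' : |q.cy z| ≤ Y := by exact_mod_cast hy
  have hx' : |q.cx z| ≤ X := by exact_mod_cast hx
  exact ⟨(q.cx z, q.cy z), ⟨abs_le.1 hx', abs_le.1 hy'⟩, e0.symm⟩

/-- the units of norm one -/
noncomputable def Un : Subgroup (𝓞 K)ˣ := (Units.map (Algebra.norm ℤ : 𝓞 K →* ℤ)).ker

theorem mem_Un {u : (𝓞 K)ˣ} : u ∈ Un (K := K) ↔ Algebra.norm ℤ (u : 𝓞 K) = 1 := by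
  unfold Un
  rw [MonoidHom.mem_ker, Units.ext_iff]
  rfl

/-- the square of the first conjugate -/
noncomputable def rho : Un (K := K) →* ℝ where
  toFun u := s1 σ (u : (𝓞 K)ˣ) ^ 2
  map_one' := by simp
  map_mul' a b := by
    push_cast
    rw [map_mul, mul_pow]

theorem rho_apply (u : Un (K := K)) : rho σ u = s1 σ ((u : (𝓞 K)ˣ) : 𝓞 K) ^ 2 := rfl

theorem s1_ne {z : 𝓞 K} (hz : z ≠ 0) : s1 σ z ≠ 0 := fun h => hz (s1_inj σ (by rw [h, map_zero]))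

theorem s2_ne {z : 𝓞 K} (hz : z ≠ 0) : s2 q σ z ≠ 0 :=
  fun h => hz (s2_inj q σ (by rw [h, map_zero]))

theorem rho_pos (u : Un (K := K)) : 0 < rho σ u := by
  have : s1 σ ((u : (𝓞 K)ˣ) : 𝓞 K) ≠ 0 := s1_ne σ (Units.ne_zero _)
  rw [rho_apply]; positivity

theorem s1_mul_s2_unit (u : Un (K := K)) :
    s1 σ ((u : (𝓞 K)ˣ) : 𝓞 K) * s2 q σ ((u : (𝓞 K)ˣ) : 𝓞 K) = 1 := by
  rw [s1_mul_s2, mem_Un.1 u.2]
  simp

/-- the representatives of the elements of positive norm modulo the powers of the unit `e` -/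
def Dom (e : 𝓞 K) (y : 𝓞 K) : Prop :=
  |s2 q σ y| ≤ |s1 σ y| ∧ |s1 σ y| < s1 σ e ^ 2 * |s2 q σ y|

/-- the unit attached to `e` -/
noncomputable def toUn (e : 𝓞 K) (he : e * q.s e = 1) : Un (K := K) :=
  ⟨⟨e, q.s e, he, by rw [mul_comm]; exact he⟩, by
    rw [mem_Un]
    have h := q.mul_s e
    rw [he] at h
    have h2 : ((Algebra.norm ℤ e : ℤ) : 𝓞 K) = ((1 : ℤ) : 𝓞 K) := by rw [← h]; simp
    exact_mod_cast h2⟩

theorem dom_iff (e : 𝓞 K) (he : e * q.s e = 1) {x : 𝓞 K} (hx : x ≠ 0) (u : Un (K := K)) :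
    Dom q σ e (((u : (𝓞 K)ˣ) : 𝓞 K) * x) ↔
      1 ≤ (|s1 σ x| / |s2 q σ x|) * rho σ u ∧
        (|s1 σ x| / |s2 q σ x|) * rho σ u < rho σ (toUn q e he) := by
  have h1 := s1_mul_s2_unit q σ u
  have h2 : 0 < |s1 σ x| := abs_pos.2 (s1_ne σ hx)
  have h3 : 0 < |s2 q σ x| := abs_pos.2 (s2_ne q σ hx)
  have hu : s1 σ ((u : (𝓞 K)ˣ) : 𝓞 K) ≠ 0 := s1_ne σ (Units.ne_zero _)
  have h4 : 0 < |s1 σ ((u : (𝓞 K)ˣ) : 𝓞 K)| := abs_pos.2 hu
  have h5 : |s2 q σ ((u : (𝓞 K)ˣ) : 𝓞 K)| = |s1 σ ((u : (𝓞 K)ˣ) : 𝓞 K)|⁻¹ := by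
    rw [← one_div, eq_div_iff h4.ne', ← abs_mul, mul_comm, h1, abs_one]
  have h6 : rho σ u = |s1 σ ((u : (𝓞 K)ˣ) : 𝓞 K)| ^ 2 := by rw [rho_apply, sq_abs]
  have h7 : rho σ (toUn q e he) = s1 σ e ^ 2 := rfl
  unfold Dom
  rw [map_mul, map_mul, abs_mul, abs_mul, h5, h6, h7]
  set a := |s1 σ ((u : (𝓞 K)ˣ) : 𝓞 K)|
  set b := |s1 σ x|
  set c := |s2 q σ x|
  constructor
  · rintro ⟨p1, p2⟩
    rw [inv_mul_eq_div, div_le_iff₀ h4] at p1
    rw [inv_mul_eq_div, mul_div_assoc', lt_div_iff₀ h4] at p2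
    constructor
    · rw [div_mul_eq_mul_div, one_le_div h3]; nlinarith
    · rw [div_mul_eq_mul_div, div_lt_iff₀ h3]; nlinarith
  · rintro ⟨p1, p2⟩
    rw [div_mul_eq_mul_div, one_le_div h3] at p1
    rw [div_mul_eq_mul_div, div_lt_iff₀ h3] at p2
    rw [inv_mul_eq_div, div_le_iff₀ h4, mul_div_assoc', lt_div_iff₀ h4]
    constructor <;> nlinarith

/-- **Counting.** Each class of associated elements of positive norm has the same number
`c > 0` of elements in the domain. -/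
theorem exists_count (e : 𝓞 K) (he : e * q.s e = 1) (he1 : 1 < s1 σ e) :
    ∃ c : ℕ, 0 < c ∧ ∀ x : 𝓞 K, 0 < Algebra.norm ℤ x →
      {y : 𝓞 K | Ideal.span {y} = Ideal.span {x} ∧ 0 < Algebra.norm ℤ y ∧ Dom q σ e y}.Finite ∧
      {y : 𝓞 K | Ideal.span {y} = Ideal.span {x} ∧ 0 < Algebra.norm ℤ y ∧
        Dom q σ e y}.ncard = c := by
  have hE : 1 < rho σ (toUn q e he) := by
    have : rho σ (toUn q e he) = s1 σ e ^ 2 := rfl
    rw [this]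
    nlinarith
  have hset : ∀ x : 𝓞 K, 0 < Algebra.norm ℤ x →
      {y : 𝓞 K | Ideal.span {y} = Ideal.span {x} ∧ 0 < Algebra.norm ℤ y ∧ Dom q σ e y} =
      (fun u : Un (K := K) => ((u : (𝓞 K)ˣ) : 𝓞 K) * x) ''
        {u | 1 ≤ (|s1 σ x| / |s2 q σ x|) * rho σ u ∧
          (|s1 σ x| / |s2 q σ x|) * rho σ u < rho σ (toUn q e he)} := by
    intro x hx
    have hx0 : x ≠ 0 := by rintro rfl; simp at hx
    ext y
    simp only [Set.mem_ofPred_eq, Set.mem_image]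
    constructor
    · rintro ⟨h1, h2, h3⟩
      rw [Ideal.span_singleton_eq_span_singleton] at h1
      obtain ⟨v, hv⟩ := h1.symm
      have hy : y = (v : 𝓞 K) * x := by rw [← hv, mul_comm]
      have hvn : Algebra.norm ℤ (v : 𝓞 K) = 1 := by
        have h4 : IsUnit (Algebra.norm ℤ (v : 𝓞 K)) := v.isUnit.map (Algebra.norm ℤ)
        rcases Int.isUnit_iff.1 h4 with h5 | h5
        · exact h5
        · rw [hy, map_mul, h5] at h2
          omega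
      refine ⟨⟨v, mem_Un.2 hvn⟩, ?_, hy.symm⟩
      rw [← dom_iff q σ e he hx0]
      change Dom q σ e ((v : 𝓞 K) * x)
      rw [← hy]
      exact h3
    · rintro ⟨u, hu, rfl⟩
      refine ⟨?_, ?_, ?_⟩
      · rw [Ideal.span_singleton_eq_span_singleton]
        exact (associated_unit_mul_left _ _ (Units.isUnit _))
      · rw [map_mul, mem_Un.1 u.2, one_mul]; exact hx
      · rw [dom_iff q σ e he hx0]
        exact hu
  have hinj : ∀ x : 𝓞 K, x ≠ 0 →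
      Function.Injective (fun u : Un (K := K) => ((u : (𝓞 K)ˣ) : 𝓞 K) * x) := by
    intro x hx u v huv
    have := mul_right_cancel₀ hx huv
    exact Subtype.ext (Units.ext this)
  have hfin1 : {u : Un (K := K) | 1 ≤ rho σ u ∧ rho σ u < rho σ (toUn q e he)}.Finite := by
    have h1 := finite_bdd q σ (s1 σ e) 1
    have h2 : Function.Injective (fun u : Un (K := K) => ((u : (𝓞 K)ˣ) : 𝓞 K)) := by
      intro u v huv
      exact Subtype.ext (Units.ext huv)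
    refine (h1.preimage h2.injOn).subset ?_
    rintro u ⟨hu1, hu2⟩
    have h3 := s1_mul_s2_unit q σ u
    have h7 : rho σ (toUn q e he) = s1 σ e ^ 2 := rfl
    rw [h7, rho_apply] at hu2
    rw [rho_apply] at hu1
    have h4 : |s1 σ ((u : (𝓞 K)ˣ) : 𝓞 K)| ≤ s1 σ e :=
      (abs_lt_of_sq_lt_sq hu2 (by linarith)).le
    have h5 : 1 ≤ |s1 σ ((u : (𝓞 K)ˣ) : 𝓞 K)| := by
      rw [← sq_abs] at hu1
      nlinarith [abs_nonneg (s1 σ ((u : (𝓞 K)ˣ) : 𝓞 K))]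
    refine ⟨h4, ?_⟩
    have h6 : |s1 σ ((u : (𝓞 K)ˣ) : 𝓞 K)| * |s2 q σ ((u : (𝓞 K)ˣ) : 𝓞 K)| = 1 := by
      rw [← abs_mul, h3, abs_one]
    nlinarith [abs_nonneg (s2 q σ ((u : (𝓞 K)ˣ) : 𝓞 K))]
  refine ⟨{u : Un (K := K) | 1 ≤ rho σ u ∧ rho σ u < rho σ (toUn q e he)}.ncard, ?_, ?_⟩
  · rw [Set.ncard_pos hfin1]
    exact ⟨1, by simp only [Set.mem_ofPred_eq, map_one]; exact ⟨le_rfl, hE⟩⟩
  · intro x hx
    have hx0 : x ≠ 0 := by rintro rfl; simp at hx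
    have hr : 0 < |s1 σ x| / |s2 q σ x| :=
      div_pos (abs_pos.2 (s1_ne σ hx0)) (abs_pos.2 (s2_ne q σ hx0))
    have hn := ncard_eq (rho (K := K) σ) (rho_pos σ) (toUn q e he) hE hr
    have hn1 : 0 < {u : Un (K := K) | 1 ≤ rho σ u ∧ rho σ u < rho σ (toUn q e he)}.ncard := by
      rw [Set.ncard_pos hfin1]
      exact ⟨1, by simp only [Set.mem_ofPred_eq, map_one]; exact ⟨le_rfl, hE⟩⟩
    rw [hset x hx]
    constructor
    · refine Set.Finite.image _ ?_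
      refine Set.finite_of_ncard_pos ?_
      rw [hn]
      exact hn1
    · rw [Set.ncard_image_of_injective _ (hinj x hx0), hn]

end Vale.Agent.P022.H905
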