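import Vale.Agent.P022.H905.Orb
import Vale.Agent.P022.H436.Unfold
import Vale.Agent.P022.H954.RDefs

/-!
# P022 / P8b: real quadratic ray class characters as vectors of binary forms
-/

namespace Vale.Agent.P022.H905

open NumberField Module
open Vale.Agent.P022.H436 (QD LF NP xf exists_LF exists_reps exists_QD)
open Vale.Agent.P022.H23 (BQ)
open Vale.Agent.P022.H954 (Fac UAct sg RR cf P9_arith_statement)
open Vale.Agent.P267.H775 (toR toR_apply)

variable {K : Type} [Field K] [NumberField K] (q : QD K) (σ : K →+* ℝ)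

/-- **Counting**, in terms of units. -/
theorem exists_count_units (e : 𝓞 K) (he : e * q.s e = 1) (he1 : 1 < s1 σ e) :
    ∃ c : ℕ, 0 < c ∧ ∀ x : 𝓞 K, 0 < Algebra.norm ℤ x →
      {u : (𝓞 K)ˣ | 0 < Algebra.norm ℤ ((u : 𝓞 K) * x) ∧ Dom q σ e ((u : 𝓞 K) * x)}.ncard = c := by
  obtain ⟨c, hc, h⟩ := exists_count q σ e he he1
  refine ⟨c, hc, fun x hx => ?_⟩
  have hx0 : x ≠ 0 := by rintro rfl; simp at hx
  rw [← (h x hx).2, ← Set.ncard_image_of_injective (f := fun u : (𝓞 K)ˣ => (u : 𝓞 K) * x)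
    {u : (𝓞 K)ˣ | 0 < Algebra.norm ℤ ((u : 𝓞 K) * x) ∧ Dom q σ e ((u : 𝓞 K) * x)}
    (fun u v huv => Units.ext (mul_right_cancel₀ hx0 huv))]
  congr 1
  ext y
  simp only [Set.mem_image, Set.mem_ofPred_eq]
  constructor
  · rintro ⟨u, ⟨h1, h2⟩, rfl⟩
    refine ⟨?_, h1, h2⟩
    rw [Ideal.span_singleton_eq_span_singleton]
    exact (associated_unit_mul_left _ _ (Units.isUnit _))
  · rintro ⟨h1, h2, h3⟩
    rw [Ideal.span_singleton_eq_span_singleton] at h1
    obtain ⟨v, hv⟩ := h1.symm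
    have hy : y = (v : 𝓞 K) * x := by rw [← hv, mul_comm]
    exact ⟨v, ⟨by rw [← hy]; exact h2, by rw [← hy]; exact h3⟩, hy.symm⟩

section form

variable {b : Ideal (𝓞 K)} (F : LF b)

/-- the binary form of an ideal -/
def bq : BQ := ⟨F.A, F.B, F.C⟩

theorem bq_q (x : Fin 2 → ℤ) : (bq F).q x = F.q x := by
  simp [bq, BQ.q, LF.q]

theorem bq_det : (bq F).det = -discr K := by
  rw [← F.disc]; simp only [BQ.det, bq]; ring

theorem L_expand (x : Fin 2 → ℤ) : F.L x = x 0 * F.L ![1, 0] + x 1 * F.L ![0, 1] := by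
  have h : x = x 0 • ![1, 0] + x 1 • ![0, 1] := by
    ext i; fin_cases i <;> simp
  conv_lhs => rw [h]
  rw [map_add, F.L_smul, F.L_smul]

theorem sqrtN_pos (hb : b ≠ ⊥) : 0 < Real.sqrt (Ideal.absNorm b) := by
  rw [Real.sqrt_pos]
  exact_mod_cast Nat.pos_of_ne_zero fun h => hb (Ideal.absNorm_eq_zero_iff.mp h)

include q in
theorem polar (x y : Fin 2 → ℤ) : s1 σ (F.L x) * s2 q σ (F.L y) + s1 σ (F.L y) * s2 q σ (F.L x) =
    (Ideal.absNorm b : ℝ) * ((F.q (x + y) - F.q x - F.q y : ℤ) : ℝ) := by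
  have h1 := s1_mul_s2 q σ (F.L x)
  have h2 := s1_mul_s2 q σ (F.L y)
  have h3 := s1_mul_s2 q σ (F.L (x + y))
  rw [F.norm_eq] at h1 h2 h3
  rw [map_add, map_add, map_add] at h3
  push_cast at h1 h2 h3 ⊢
  linear_combination h3 - h1 - h2

/-- the factorisation of the norm form -/
noncomputable def fac (hb : b ≠ ⊥) : Fac (bq F) where
  l0 := s1 σ (F.L ![1, 0]) / Real.sqrt (Ideal.absNorm b)
  l1 := s1 σ (F.L ![0, 1]) / Real.sqrt (Ideal.absNorm b)
  m0 := s2 q σ (F.L ![1, 0]) / Real.sqrt (Ideal.absNorm b)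
  m1 := s2 q σ (F.L ![0, 1]) / Real.sqrt (Ideal.absNorm b)
  ha := by
    have hN := sqrtN_pos hb
    have hs : Real.sqrt (Ideal.absNorm b) * Real.sqrt (Ideal.absNorm b) = Ideal.absNorm b :=
      Real.mul_self_sqrt (Nat.cast_nonneg _)
    have h1 := s1_mul_s2 q σ (F.L ![1, 0])
    rw [F.norm_eq] at h1
    have h2 : F.q ![1, 0] = F.A := by simp [LF.q]
    rw [h2] at h1
    push_cast at h1
    rw [div_mul_div_comm, h1, hs]
    have : (Ideal.absNorm b : ℝ) ≠ 0 := by rw [← hs]; positivity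
    field_simp
    rfl
  hb := by
    have hN := sqrtN_pos hb
    have hs : Real.sqrt (Ideal.absNorm b) * Real.sqrt (Ideal.absNorm b) = Ideal.absNorm b :=
      Real.mul_self_sqrt (Nat.cast_nonneg _)
    have h1 := polar q σ F ![1, 0] ![0, 1]
    have h2 : F.q (![1, 0] + ![0, 1]) - F.q ![1, 0] - F.q ![0, 1] = F.B := by
      simp [LF.q]
      ring
    rw [h2] at h1
    rw [div_mul_div_comm, div_mul_div_comm, hs, ← add_div, h1]
    have : (Ideal.absNorm b : ℝ) ≠ 0 := by rw [← hs]; positivity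
    field_simp
    rfl
  hc := by
    have hN := sqrtN_pos hb
    have hs : Real.sqrt (Ideal.absNorm b) * Real.sqrt (Ideal.absNorm b) = Ideal.absNorm b :=
      Real.mul_self_sqrt (Nat.cast_nonneg _)
    have h1 := s1_mul_s2 q σ (F.L ![0, 1])
    rw [F.norm_eq] at h1
    have h2 : F.q ![0, 1] = F.C := by simp [LF.q]
    rw [h2] at h1
    push_cast at h1
    rw [div_mul_div_comm, h1, hs]
    have : (Ideal.absNorm b : ℝ) ≠ 0 := by rw [← hs]; positivity
    field_simp
    rfl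
  hd := by
    have hN := sqrtN_pos hb
    have hs : Real.sqrt (Ideal.absNorm b) * Real.sqrt (Ideal.absNorm b) = Ideal.absNorm b :=
      Real.mul_self_sqrt (Nat.cast_nonneg _)
    intro h0
    have h1 := polar q σ F ![1, 0] ![0, 1]
    have h2 : F.q (![1, 0] + ![0, 1]) - F.q ![1, 0] - F.q ![0, 1] = F.B := by
      simp [LF.q]
      ring
    rw [h2] at h1
    have h3 := s1_mul_s2 q σ (F.L ![1, 0])
    rw [F.norm_eq] at h3
    have h4 : F.q ![1, 0] = F.A := by simp [LF.q]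
    rw [h4] at h3
    have h5 := s1_mul_s2 q σ (F.L ![0, 1])
    rw [F.norm_eq] at h5
    have h6 : F.q ![0, 1] = F.C := by simp [LF.q]
    rw [h6] at h5
    have h7 : s1 σ (F.L ![1, 0]) * s2 q σ (F.L ![0, 1]) -
        s1 σ (F.L ![0, 1]) * s2 q σ (F.L ![1, 0]) = 0 := by
      rw [div_mul_div_comm, div_mul_div_comm, ← sub_div, div_eq_zero_iff, hs] at h0
      rcases h0 with h0 | h0
      · exact h0
      · exfalso
        rw [← hs] at h0
        have : 0 < Real.sqrt (Ideal.absNorm b) * Real.sqrt (Ideal.absNorm b) := by positivity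
        linarith
    have h8 : (Ideal.absNorm b : ℝ) ^ 2 * ((discr K : ℤ) : ℝ) = 0 := by
      rw [← F.disc]
      push_cast at h1 h3 h5 ⊢
      linear_combination (s1 σ (F.L ![1, 0]) * s2 q σ (F.L ![0, 1]) -
        s1 σ (F.L ![0, 1]) * s2 q σ (F.L ![1, 0])) * h7 -
        (s1 σ (F.L ![1, 0]) * s2 q σ (F.L ![0, 1]) +
          s1 σ (F.L ![0, 1]) * s2 q σ (F.L ![1, 0]) + Ideal.absNorm b * F.B) * h1 +
        4 * (s1 σ (F.L ![1, 0]) * s2 q σ (F.L ![1, 0])) * h5 +
        4 * (Ideal.absNorm b * F.C) * h3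
    have h9 : (discr K : ℝ) ≠ 0 := by exact_mod_cast discr_ne_zero K
    have h10 : (Ideal.absNorm b : ℝ) ≠ 0 := by rw [← hs]; positivity
    exact mul_ne_zero (pow_ne_zero 2 h10) h9 h8

theorem fac_l (hb : b ≠ ⊥) (x : Fin 2 → ℤ) :
    (fac q σ F hb).l (toR x) = s1 σ (F.L x) / Real.sqrt (Ideal.absNorm b) := by
  rw [L_expand F x]
  simp only [Fac.l, fac, toR_apply, map_add, map_mul, map_intCast]
  ring

theorem fac_m (hb : b ≠ ⊥) (x : Fin 2 → ℤ) :
    (fac q σ F hb).m (toR x) = s2 q σ (F.L x) / Real.sqrt (Ideal.absNorm b) := by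
  rw [L_expand F x]
  simp only [Fac.m, fac, toR_apply, map_add, map_mul, map_intCast]
  ring

/-- multiplication by an integer on the lattice of an ideal -/
noncomputable def mulU (e : 𝓞 K) : (Fin 2 → ℤ) →+ (Fin 2 → ℤ) where
  toFun x := ((F.mem (e * F.L x)).1 (Ideal.mul_mem_left _ _ (F.L_mem x))).choose
  map_zero' := by
    apply F.inj
    rw [((F.mem (e * F.L 0)).1 (Ideal.mul_mem_left _ _ (F.L_mem 0))).choose_spec]
    simp
  map_add' x y := by
    have h1 := ((F.mem (e * F.L (x + y))).1 (Ideal.mul_mem_left _ _ (F.L_mem _))).choose_spec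
    have h2 := ((F.mem (e * F.L x)).1 (Ideal.mul_mem_left _ _ (F.L_mem _))).choose_spec
    have h3 := ((F.mem (e * F.L y)).1 (Ideal.mul_mem_left _ _ (F.L_mem _))).choose_spec
    refine F.inj (h1.trans ?_)
    refine Eq.trans ?_ (map_add F.L _ _).symm
    rw [h2, h3, map_add, mul_add]

theorem L_mulU (e : 𝓞 K) (x : Fin 2 → ℤ) : F.L (mulU F e x) = e * F.L x :=
  ((F.mem (e * F.L x)).1 (Ideal.mul_mem_left _ _ (F.L_mem _))).choose_spec

/-- the action of the unit -/
noncomputable def uact (hb : b ≠ ⊥) {M : ℕ} {e z : 𝓞 K} (he : e * q.s e = 1)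
    (hz : e = 1 + (((M : ℤ) ^ 2 * discr K : ℤ) : 𝓞 K) * z) :
    UAct (fac q σ F hb) M (s1 σ e) where
  U := AddEquiv.mk' (Equiv.mk (mulU F e) (mulU F (q.s e))
      (fun x => F.inj (by rw [L_mulU, L_mulU, ← mul_assoc, mul_comm (q.s e), he, one_mul]))
      (fun x => F.inj (by rw [L_mulU, L_mulU, ← mul_assoc, he, one_mul])))
      (fun x y => map_add (mulU F e) x y)
  hl x := by
    change (fac q σ F hb).l (toR (mulU F e x)) = _
    rw [fac_l, fac_l, L_mulU, map_mul, mul_div_assoc]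
  hm x := by
    change (fac q σ F hb).m (toR (mulU F e x)) = _
    have h1 : s1 σ e * s2 q σ e = 1 := by
      rw [s2_apply, ← map_mul, he, map_one]
    have h2 : s2 q σ e = (s1 σ e)⁻¹ := eq_inv_of_mul_eq_one_right h1
    rw [fac_m, fac_m, L_mulU, map_mul, h2, mul_div_assoc]
  hc x := by
    refine ⟨-mulU F z x, ?_⟩
    change mulU F e x = _
    apply F.inj
    rw [map_add, F.L_smul, map_neg, L_mulU, L_mulU, bq_det]
    conv_lhs => rw [hz]
    push_cast
    ring

end form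

/-- **P8b.** -/
theorem P9_arith : P9_arith_statement := by
  intro K _ _ h2 σ w hw M0 hM0 ξ hξ
  classical
  obtain ⟨q⟩ := exists_QD h2
  have hIs : IsSign w := Or.inr ⟨σ, hw⟩
  -- the modulus is not one
  have hM1 : M0 ≠ 1 := by
    rintro rfl
    have h1 := hξ.princ (-1) (by simp) (by simp [idl])
    rw [hw, if_neg (by simp)] at h1
    have h3 : Ideal.span {(-1 : 𝓞 K)} = ⊤ := by
      rw [Ideal.span_singleton_eq_top]; exact isUnit_one.neg
    rw [h3] at h1
    have h4 : ξ ⊤ = 1 := by rw [← Ideal.one_eq_top]; exact map_one ξ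
    rw [h4] at h1
    norm_num at h1
  -- the unit
  have hMne : ((M0 : ℤ) ^ 2 * discr K) ≠ 0 := by
    have h3 : (M0 : ℤ) ≠ 0 := by exact_mod_cast hM0.ne'
    exact mul_ne_zero (pow_ne_zero 2 h3) (discr_ne_zero K)
  obtain ⟨e, z, he, he1, hez⟩ := exists_unit q σ hMne
  obtain ⟨c, hc0, hc⟩ := exists_count_units q σ e he he1
  -- the class representatives
  obtain ⟨B, hB, hB1⟩ := exists_reps (K := K) h2 hM0
  have hbne : ∀ b : B, (b : Ideal (𝓞 K)) ≠ ⊥ := fun b => (hB b b.2).1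
  let F : ∀ b : B, LF (b : Ideal (𝓞 K)) := fun b => (exists_LF h2 (hbne b)).some
  let eB := B.equivFin
  refine ⟨B.card, fun i => bq (F (eB.symm i)), fun i => fac q σ (F (eB.symm i)) (hbne _), s1 σ e,
    fun i => uact q σ (F (eB.symm i)) (hbne _) he hez,
    fun i x => xf ξ M0 w ((F (eB.symm i)).L x),
    fun i => ((c : ℂ) * ξ (eB.symm i : Ideal (𝓞 K)))⁻¹, he1, fun i => bq_det _, ?_, ?_, ?_, ?_⟩
  · intro i x hx
    rw [bq_q]
    intro h0
    have h1 := (F (eB.symm i)).norm_eq x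
    rw [h0, mul_zero, Algebra.norm_eq_zero_iff, LF.L_zero_iff] at h1
    exact hx h1
  · intro i x y
    refine H436.xf_congr hIs hξ ?_
    rw [map_add, LF.L_smul, add_sub_cancel_left]
    exact Ideal.mul_mem_right _ _ (Ideal.mem_span_singleton_self _)
  · intro i d x
    simp only [LF.L_smul]
    rcases Nat.eq_zero_or_pos d with rfl | hd
    · have h3 : ξ (idl K ((0 : ℕ) : ℤ)) = 0 := by
        have : idl K ((0 : ℕ) : ℤ) = ⊥ := by simp [idl]
        rw [this]
        exact map_zero ξ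
      have h4 : xf ξ M0 w (((((0 : ℕ) : ℤ) : 𝓞 K)) * (F (eB.symm i)).L x) = 0 := by
        rw [Nat.cast_zero, Int.cast_zero, zero_mul, H436.xf_zero, if_neg hM1]
      rw [h3, h4, zero_mul]
    · have := H436.xf_nat_mul hIs hξ hd ((F (eB.symm i)).L x)
      rw [← this]
      simp
  · intro n hn
    rw [← H436.sum_classes hB1 ξ hn]
    have hterm : ∀ b : B, ((c : ℂ) * ξ (b : Ideal (𝓞 K)))⁻¹ *
        cf (fac q σ (F b) (hbne b)) (s1 σ e) (fun x => xf ξ M0 w ((F b).L x)) n =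
        ∑ᶠ I ∈ {I : Ideal (𝓞 K) | Ideal.absNorm I = n ∧ NP I b}, ξ I := by
      intro b
      have hb := hbne b
      have hN := sqrtN_pos hb
      have hNb : 0 < (Ideal.absNorm (b : Ideal (𝓞 K)) : ℤ) := by
        exact_mod_cast Nat.pos_of_ne_zero fun h => hb (Ideal.absNorm_eq_zero_iff.mp h)
      have hξb : ξ (b : Ideal (𝓞 K)) ≠ 0 := (hξ.supp _).2 (hB b b.2).2
      obtain ⟨hfin, hsum⟩ := H436.unfold_sum hb
        {x | x ∈ (b : Ideal (𝓞 K)) ∧ 0 < Algebra.norm ℤ x ∧ Dom q σ e x} hc0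
        (fun x hx => ⟨hx.1, hx.2.1⟩)
        (fun x hx hx0 => by
          rw [← hc x hx0]
          congr 1
          ext u
          simp only [Set.mem_ofPred_eq]
          exact ⟨fun h => h.2, fun h => ⟨Ideal.mul_mem_left _ _ hx, h⟩⟩)
        (fun x => ξ (Ideal.span {x})) (fun I => ξ I * ξ b)
        (fun x _ I hI => by rw [← hI, map_mul]) n
      have hset : {x | x ∈ {x | x ∈ (b : Ideal (𝓞 K)) ∧ 0 < Algebra.norm ℤ x ∧ Dom q σ e x} ∧
          Algebra.norm ℤ x = n * Ideal.absNorm (b : Ideal (𝓞 K))} =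
          (F b).L '' {x : Fin 2 → ℤ | x ∈ RR (fac q σ (F b) hb) (s1 σ e) ∧
            (bq (F b)).q x = (n : ℤ)} := by
        ext y
        simp only [Set.mem_ofPred_eq, Set.mem_image, RR, fac_l, fac_m, bq_q]
        have key : ∀ x : Fin 2 → ℤ, Dom q σ e ((F b).L x) ↔
            |s2 q σ ((F b).L x) / √(Ideal.absNorm (b : Ideal (𝓞 K)))| ≤
              |s1 σ ((F b).L x) / √(Ideal.absNorm (b : Ideal (𝓞 K)))| ∧
            |s1 σ ((F b).L x) / √(Ideal.absNorm (b : Ideal (𝓞 K)))| <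
              s1 σ e ^ 2 * |s2 q σ ((F b).L x) / √(Ideal.absNorm (b : Ideal (𝓞 K)))| := by
          intro x
          unfold Dom
          rw [abs_div, abs_div, abs_of_pos hN, div_le_div_iff_of_pos_right hN, ← mul_div_assoc,
            div_lt_div_iff_of_pos_right hN]
        constructor
        · rintro ⟨⟨h1, h3, h4⟩, h5⟩
          obtain ⟨x, rfl⟩ := ((F b).mem y).1 h1
          rw [LF.norm_eq] at h3 h5
          refine ⟨x, ⟨⟨?_, (key x).1 h4⟩, ?_⟩, rfl⟩
          · exact (mul_pos_iff_of_pos_left hNb).1 h3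
          · rw [mul_comm] at h5
            exact mul_right_cancel₀ hNb.ne' h5
        · rintro ⟨x, ⟨⟨h1, h3⟩, h4⟩, rfl⟩
          refine ⟨⟨(F b).L_mem x, ?_, (key x).2 h3⟩, ?_⟩
          · rw [LF.norm_eq]; positivity
          · rw [LF.norm_eq, h4, mul_comm]
      have hcf : cf (fac q σ (F b) hb) (s1 σ e) (fun x => xf ξ M0 w ((F b).L x)) n =
          (c : ℂ) * ξ b * ∑ᶠ I ∈ {I : Ideal (𝓞 K) | Ideal.absNorm I = n ∧ NP I b}, ξ I := by
        have h3 : ∑ᶠ I ∈ {I : Ideal (𝓞 K) | Ideal.absNorm I = n ∧ NP I b}, ξ I * ξ b =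
            ξ b * ∑ᶠ I ∈ {I : Ideal (𝓞 K) | Ideal.absNorm I = n ∧ NP I b}, ξ I := by
          rw [mul_finsum_mem' _ _ ((Ideal.finite_setOfPred_absNorm_eq (S := 𝓞 K) n).subset
            (fun I hI => hI.1))]
          exact finsum_mem_congr rfl fun I _ => mul_comm _ _
        rw [mul_assoc, ← h3, ← hsum, hset, finsum_mem_image ((F b).inj.injOn)]
        unfold cf
        refine finsum_mem_congr rfl fun x hx => ?_
        have hx0 : (F b).L x ≠ 0 := by
          have h5 : 0 < (bq (F b)).q x := hx.1.1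
          rw [bq_q] at h5
          intro h6
          have h7 := (F b).norm_eq x
          rw [h6, Algebra.norm_zero] at h7
          have : 0 < (Ideal.absNorm (b : Ideal (𝓞 K)) : ℤ) * (F b).q x := by positivity
          omega
        have hsg : sg ((fac q σ (F b) hb).l (toR x)) = w ((F b).L x : K) := by
          rw [fac_l, hw, sg]
          have : (0 < s1 σ ((F b).L x) / √(Ideal.absNorm (b : Ideal (𝓞 K)))) ↔
              0 < σ ((F b).L x : K) := by
            rw [← s1_apply]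
            exact ⟨fun h => (div_pos_iff_of_pos_right hN).1 h, fun h => div_pos h hN⟩
          simp only [this]
        change xf ξ M0 w ((F b).L x) * _ = _
        rw [hsg, H436.xf_of_ne _ _ _ hx0]
        have h8 := H436.IsSign.sq hIs ((F b).L x : K)
        linear_combination ξ (Ideal.span {(F b).L x}) * h8
      rw [hcf]
      have hcC : (c : ℂ) ≠ 0 := by exact_mod_cast hc0.ne'
      field_simp
    rw [← Finset.sum_coe_sort B]
    rw [← Equiv.sum_comp eB.symm]
    exact Finset.sum_congr rfl fun i _ => (hterm (eB.symm i)).symm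

end Vale.Agent.P022.H905
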