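import Vale.Agent.P022.H436.Quad

/-!
# P022 / P8b: a unit of norm one of a real quadratic field, congruent to `1` modulo `M`
-/

namespace Vale.Agent.P022.H905

open NumberField Module
open Vale.Agent.P022.H436 (QD)

variable {K : Type*} [Field K] [NumberField K] (q : QD K)

/-- the square root of the discriminant -/
noncomputable def dl : 𝓞 K := 2 * q.w - q.t

theorem dl_sq : dl q * dl q = (discr K : 𝓞 K) := by
  rw [q.discr_eq]
  unfold dl
  push_cast
  linear_combination (4 : 𝓞 K) * q.hw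

theorem cx_dl : q.cx (dl q) = -q.t ∧ q.cy (dl q) = 2 :=
  q.c_unique (by unfold dl; push_cast; ring)

theorem s_w : q.s q.w = q.t - q.w := by
  have h := q.s_mk 0 1
  simpa using h

theorem s_int (n : ℤ) : q.s (n : 𝓞 K) = n := map_intCast _ n

theorem s_dl : q.s (dl q) = -dl q := by
  have h2 : q.s (2 : 𝓞 K) = 2 := by
    have := s_int q 2
    simpa using this
  unfold dl
  rw [map_sub, map_mul, s_w, s_int, h2]
  ring

include q in
theorem not_isSquare : ¬ IsSquare (discr K) := by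
  rintro ⟨s, hs⟩
  have h : (dl q - (s : 𝓞 K)) * (dl q + (s : 𝓞 K)) = 0 := by
    have := dl_sq q
    rw [hs] at this
    push_cast at this
    linear_combination this
  rcases mul_eq_zero.1 h with h | h
  · have h1 : dl q = ((s : ℤ) : 𝓞 K) + ((0 : ℤ) : 𝓞 K) * q.w := by
      push_cast; linear_combination h
    have := (q.c_unique h1).2
    rw [(cx_dl q).2] at this
    omega
  · have h1 : dl q = ((-s : ℤ) : 𝓞 K) + ((0 : ℤ) : 𝓞 K) * q.w := by
      push_cast; linear_combination h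
    have := (q.c_unique h1).2
    rw [(cx_dl q).2] at this
    omega

variable (σ : K →+* ℝ)

/-- the first embedding on integers -/
noncomputable def s1 : 𝓞 K →+* ℝ := σ.comp (algebraMap (𝓞 K) K)

/-- the second embedding on integers -/
noncomputable def s2 : 𝓞 K →+* ℝ := (s1 σ).comp q.s

theorem s1_apply (z : 𝓞 K) : s1 σ z = σ (z : K) := rfl

theorem s2_apply (z : 𝓞 K) : s2 q σ z = s1 σ (q.s z) := rfl

theorem s1_mul_s2 (z : 𝓞 K) : s1 σ z * s2 q σ z = ((Algebra.norm ℤ z : ℤ) : ℝ) := by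
  rw [s2_apply, ← map_mul, q.mul_s, map_intCast]

theorem s1_inj : Function.Injective (s1 (K := K) σ) := by
  intro a b h
  rw [s1_apply, s1_apply] at h
  exact RingOfIntegers.ext (σ.injective h)

theorem s2_inj : Function.Injective (s2 q σ) := by
  intro a b h
  rw [s2_apply, s2_apply] at h
  have := s1_inj σ h
  rw [← q.s_s a, this, q.s_s]

theorem s1_dl_sq : s1 σ (dl q) ^ 2 = (discr K : ℝ) := by
  rw [pow_two, ← map_mul, dl_sq, map_intCast]

include q σ in
theorem discr_pos : 0 < discr K := by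
  have h1 := s1_dl_sq q σ
  have h2 : (0 : ℝ) ≤ (discr K : ℝ) := by rw [← h1]; positivity
  have h3 : discr K ≠ 0 := discr_ne_zero K
  have h4 : 0 ≤ discr K := by exact_mod_cast h2
  omega

theorem s1_dl_ne : s1 σ (dl q) ≠ 0 := by
  intro h
  have h1 := s1_dl_sq q σ
  rw [h] at h1
  have h2 := discr_pos q σ
  have h3 : (0 : ℝ) < (discr K : ℝ) := by exact_mod_cast h2
  norm_num at h1
  linarith [h1.symm.le]

theorem not_isSquare_mul {D M : ℤ} (hM : M ≠ 0) (hD : ¬ IsSquare D) : ¬ IsSquare (D * M ^ 2) := by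
  rintro ⟨s, hs⟩
  have h1 : M ^ 2 ∣ s ^ 2 := ⟨D, by rw [pow_two s, ← hs]; ring⟩
  have h2 : M ∣ s := (Int.pow_dvd_pow_iff (by norm_num)).1 h1
  obtain ⟨r, rfl⟩ := h2
  refine hD ⟨r, ?_⟩
  have h3 : M ^ 2 * D = M ^ 2 * (r * r) := by linear_combination hs
  exact mul_left_cancel₀ (pow_ne_zero 2 hM) h3

/-- a unit of norm one, larger than one, congruent to one -/
theorem exists_unit {M : ℤ} (hM : M ≠ 0) :
    ∃ e z : 𝓞 K, e * q.s e = 1 ∧ 1 < s1 σ e ∧ e = 1 + (M : 𝓞 K) * z := by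
  have hD := discr_pos q σ
  have hM2 : 0 < M ^ 2 := by positivity
  obtain ⟨x, y, hxy, hy⟩ := Pell.exists_of_not_isSquare (d := discr K * M ^ 2)
    (mul_pos hD hM2) (not_isSquare_mul hM (not_isSquare q))
  have hx : x ≠ 0 := by
    rintro rfl
    have : 0 < discr K * M ^ 2 * y ^ 2 := by positivity
    linarith
  have hy2 : 0 < y ^ 2 := by positivity
  -- the sign
  obtain ⟨b, hb, hb2, hbs⟩ : ∃ b : ℤ, b ^ 2 = (2 * x * y) ^ 2 ∧ b ≠ 0 ∧
      0 < (b : ℝ) * ((M : ℝ) * s1 σ (dl q)) := by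
    have hMR : (M : ℝ) ≠ 0 := by exact_mod_cast hM
    have hne : (M : ℝ) * s1 σ (dl q) ≠ 0 := mul_ne_zero hMR (s1_dl_ne q σ)
    have hb0 : 2 * x * y ≠ 0 := by positivity
    have hb1 : ((2 * x * y : ℤ) : ℝ) ≠ 0 := by exact_mod_cast hb0
    rcases lt_or_gt_of_ne (mul_ne_zero hb1 hne) with h | h
    · exact ⟨-(2 * x * y), by ring, by omega, by push_cast at h ⊢; linarith⟩
    · exact ⟨2 * x * y, rfl, hb0, h⟩
  refine ⟨1 + (M : 𝓞 K) * (((2 * discr K * M * y ^ 2 : ℤ) : 𝓞 K) + (b : 𝓞 K) * dl q),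
    ((2 * discr K * M * y ^ 2 : ℤ) : 𝓞 K) + (b : 𝓞 K) * dl q, ?_, ?_, rfl⟩
  · rw [map_add, map_one, map_mul, map_add, map_mul, s_int, s_int, s_int, s_dl]
    have h1 : (1 + M * (2 * discr K * M * y ^ 2)) ^ 2 - (M * b) ^ 2 * discr K = 1 := by
      have : b ^ 2 = 4 * (y ^ 2 * (1 + discr K * M ^ 2 * y ^ 2)) := by
        rw [hb]; linear_combination (4 * y ^ 2) * hxy
      rw [mul_pow, this]; ring
    have h2 : (((1 + M * (2 * discr K * M * y ^ 2)) ^ 2 - (M * b) ^ 2 * discr K : ℤ) : 𝓞 K) =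
        ((1 : ℤ) : 𝓞 K) := by rw [h1]
    push_cast at h2 ⊢
    linear_combination h2 - ((M : 𝓞 K) * b) ^ 2 * dl_sq q
  · have h3 : s1 σ (1 + (M : 𝓞 K) * (((2 * discr K * M * y ^ 2 : ℤ) : 𝓞 K) + (b : 𝓞 K) * dl q)) =
        1 + ((2 * discr K * M ^ 2 * y ^ 2 : ℤ) : ℝ) + (b : ℝ) * ((M : ℝ) * s1 σ (dl q)) := by
      rw [map_add, map_one, map_mul, map_add, map_mul, map_intCast, map_intCast, map_intCast]
      push_cast
      ring
    rw [h3]
    have h4 : (0 : ℝ) < ((2 * discr K * M ^ 2 * y ^ 2 : ℤ) : ℝ) := by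
      have : 0 < 2 * discr K * M ^ 2 * y ^ 2 := by positivity
      exact_mod_cast this
    linarith

end Vale.Agent.P022.H905
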